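import Vale.Agent.P133.Basic

/-! Quotients of a unital C*-algebra (universe polymorphic).

Plan. `exists_quot`: put `N x = Metric.infDist x J` (or `⨅ j : J, ‖x - j‖`). For `j ∈ J` and
`η > 0` let `e = pl (star j * j) η ∈ J` (`pl W ρ = W * psi W ρ`), `0 ≤ e ≤ 1` (use
`let _ := CStarAlgebra.spectralOrder U`), and `‖j * (1 - e)‖ ^ 2 = ‖(1-e) * (star j * j) * (1-e)‖ ≤ η`
(cfc: `t (1 - min(1,t/η))^2 ≤ η`; or: `W (1 - pl W η) = cfc (t - t min(1,t/η))` has norm `≤ η`).
Hence `N (star j) = 0` (`star j - e * star j = star (j (1-e))`), so `N (star x) ≤ ‖star x - star j‖`,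
and `N x ^ 2 ≤ ‖x (1-e)‖^2 = ‖(1-e) (star x * x) (1-e)‖ ≤ ‖star x * x - j‖ + ‖j (1-e)‖`.
So `N` is a C*-seminorm; copy the construction `CSemi` of `Vale/Agent/P101/Quot.lean` with
`Type u` in place of `Type` (do not import it, it is in universe 0), and put the spectral order
(`CStarAlgebra.spectralOrder`, `CStarAlgebra.spectralOrderedRing`) on the quotient.
`exists_factor`: `π' v := φ.π (Function.surjInv hq v)`.
`exists_quot_gen`: `J = TwoSidedIdeal.span {d}`; if `φ.π d = 0` then `φ.π` kills `J`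
(`TwoSidedIdeal.span_le` into `TwoSidedIdeal.ker φ.π`), and `q.π x = 0` gives
`‖φ.π x‖ = ‖φ.π (x - j)‖ ≤ ‖x - j‖ < ε`. -/

namespace Vale.Agent.P133

universe u

open Filter Topology

/-- a C*-seminorm -/
structure CSemi (R : Type u) [CStarAlgebra R] where
  N : R → ℝ
  add : ∀ x y, N (x + y) ≤ N x + N y
  smul : ∀ (c : ℂ) x, N (c • x) = ‖c‖ * N x
  mul : ∀ x y, N (x * y) ≤ N x * N y
  sta : ∀ x, N (star x) = N x
  cstar : ∀ x, N x * N x ≤ N (star x * x)

namespace CSemi

variable {R : Type u} [CStarAlgebra R] (s : CSemi R)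

theorem zero : s.N 0 = 0 := by simpa using s.smul 0 0

theorem neg (x : R) : s.N (-x) = s.N x := by simpa using s.smul (-1) x

theorem nonneg (x : R) : 0 ≤ s.N x := by
  have := s.add x (-x)
  rw [add_neg_cancel, s.zero, s.neg] at this
  linarith

theorem eq_of {x y : R} (h : s.N (x - y) = 0) : s.N x = s.N y := by
  have h1 := s.add (x - y) y
  have h2 := s.add (-(x - y)) x
  rw [s.neg] at h2
  rw [sub_add_cancel] at h1
  rw [show -(x - y) + x = y by abel] at h2
  linarith

def con : RingCon R where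
  r x y := s.N (x - y) = 0
  iseqv := ⟨fun x => by simp [s.zero], fun {x y} h => by rw [← s.neg, neg_sub]; exact h,
    fun {x y z} h1 h2 => by
      have := s.add (x - y) (y - z)
      rw [sub_add_sub_cancel] at this
      exact le_antisymm (by linarith) (s.nonneg _)⟩
  add' {w x y z} h1 h2 := by
    have h1' : s.N (w - x) = 0 := h1
    have h2' : s.N (y - z) = 0 := h2
    have := s.add (w - x) (y - z)
    rw [show w - x + (y - z) = w + y - (x + z) by abel] at this
    exact le_antisymm (by linarith) (s.nonneg _)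
  mul' {w x y z} h1 h2 := by
    have h1' : s.N (w - x) = 0 := h1
    have h2' : s.N (y - z) = 0 := h2
    have := s.add ((w - x) * y) (x * (y - z))
    rw [show (w - x) * y + x * (y - z) = w * y - x * z by noncomm_ring] at this
    have a := s.mul (w - x) y
    have b := s.mul x (y - z)
    rw [h1', zero_mul] at a
    rw [h2', mul_zero] at b
    exact le_antisymm (by linarith) (s.nonneg _)

def Q : Type u := s.con.Quotient

noncomputable instance : Ring s.Q := inferInstanceAs (Ring s.con.Quotient)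
noncomputable instance : Algebra ℂ s.Q := inferInstanceAs (Algebra ℂ s.con.Quotient)

noncomputable def pr : R →ₐ[ℂ] s.Q := s.con.mkₐ ℂ

theorem mk_surj : Function.Surjective s.pr := fun q => Quotient.inductionOn' q fun x => ⟨x, rfl⟩

theorem mk_eq {x y : R} : s.pr x = s.pr y ↔ s.N (x - y) = 0 := s.con.eq

instance : Star s.Q := ⟨Quotient.map' star (fun x y h => by
  have h' : s.N (x - y) = 0 := h
  show s.N (star x - star y) = 0
  rw [← star_sub, s.sta]; exact h')⟩

theorem star_mk (x : R) : star (s.pr x) = s.pr (star x) := rfl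

noncomputable instance : StarRing s.Q where
  star_involutive q := by
    obtain ⟨x, rfl⟩ := s.mk_surj q
    rw [star_mk, star_mk, star_star]
  star_mul p q := by
    obtain ⟨x, rfl⟩ := s.mk_surj p
    obtain ⟨y, rfl⟩ := s.mk_surj q
    rw [← map_mul, star_mk, star_mk, star_mk, star_mul, map_mul]
  star_add p q := by
    obtain ⟨x, rfl⟩ := s.mk_surj p
    obtain ⟨y, rfl⟩ := s.mk_surj q
    rw [← map_add, star_mk, star_mk, star_mk, star_add, map_add]

instance : StarModule ℂ s.Q where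
  star_smul c q := by
    obtain ⟨x, rfl⟩ := s.mk_surj q
    rw [← map_smul, star_mk, star_mk, star_smul, map_smul]

def nrm (q : s.Q) : ℝ := Quotient.liftOn' q s.N fun _ _ h => s.eq_of h

theorem nrm_mk (x : R) : s.nrm (s.pr x) = s.N x := rfl

noncomputable def gn : AddGroupNorm s.Q where
  toFun := s.nrm
  map_zero' := by rw [← map_zero s.pr, nrm_mk, s.zero]
  add_le' p q := by
    obtain ⟨x, rfl⟩ := s.mk_surj p
    obtain ⟨y, rfl⟩ := s.mk_surj q
    rw [← map_add]; exact s.add x y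
  neg' q := by
    obtain ⟨x, rfl⟩ := s.mk_surj q
    rw [← map_neg]; exact s.neg x
  eq_zero_of_map_eq_zero' q h := by
    obtain ⟨x, rfl⟩ := s.mk_surj q
    rw [← map_zero s.pr, mk_eq, sub_zero]; exact h

noncomputable instance : NormedAddCommGroup s.Q := s.gn.toNormedAddCommGroup

theorem norm_mk (x : R) : ‖s.pr x‖ = s.N x := rfl

noncomputable instance : NormedRing s.Q :=
  { (inferInstance : Ring s.Q), (inferInstance : NormedAddCommGroup s.Q) with
    norm_mul_le := fun p q => by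
      obtain ⟨x, rfl⟩ := s.mk_surj p
      obtain ⟨y, rfl⟩ := s.mk_surj q
      rw [← map_mul]; exact s.mul x y }

noncomputable instance : NormedAlgebra ℂ s.Q where
  norm_smul_le c q := by
    obtain ⟨x, rfl⟩ := s.mk_surj q
    rw [← map_smul]; exact (s.smul c x).le

instance : CStarRing s.Q where
  norm_mul_self_le q := by
    obtain ⟨x, rfl⟩ := s.mk_surj q
    rw [star_mk, ← map_mul]; exact s.cstar x

theorem complete (N_le : ∀ x, s.N x ≤ ‖x‖)
    (N_lift : ∀ x, ∀ ε > 0, ∃ y, s.N (x - y) = 0 ∧ ‖y‖ ≤ s.N x + ε) : CompleteSpace s.Q := by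
  apply NormedAddCommGroup.completeSpace_of_summable_imp_tendsto
  intro u hu
  have : ∀ n, ∃ y : R, s.pr y = u n ∧ ‖y‖ ≤ ‖u n‖ + (1 / 2) ^ n := fun n => by
    obtain ⟨x, hx⟩ := s.mk_surj (u n)
    obtain ⟨y, h1, h2⟩ := N_lift x ((1 / 2) ^ n) (by positivity)
    exact ⟨y, (s.mk_eq.2 h1).symm.trans hx, by rw [← hx]; exact h2⟩
  choose y hy hn using this
  have hs : Summable y :=
    Summable.of_norm_bounded (hu.add summable_geometric_two) hn
  have hc : Continuous s.pr := AddMonoidHomClass.continuous_of_bound s.pr 1 fun x => by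
    rw [one_mul]; exact N_le x
  refine ⟨s.pr (∑' n, y n), ?_⟩
  have := (hc.tendsto _).comp hs.hasSum.tendsto_sum_nat
  refine this.congr fun n => ?_
  simp only [Function.comp, map_sum, hy]

end CSemi

theorem exists_quot_semi {R : Type u} [CStarAlgebra R] (N : R → ℝ)
    (N_add : ∀ x y, N (x + y) ≤ N x + N y)
    (N_smul : ∀ (c : ℂ) x, N (c • x) = ‖c‖ * N x)
    (N_mul : ∀ x y, N (x * y) ≤ N x * N y)
    (N_star : ∀ x, N (star x) = N x)
    (N_cstar : ∀ x, N x * N x ≤ N (star x * x))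
    (N_le : ∀ x, N x ≤ ‖x‖)
    (N_lift : ∀ x, ∀ ε > 0, ∃ y, N (x - y) = 0 ∧ ‖y‖ ≤ N x + ε) :
    ∃ (U : Type u) (_ : CStarAlgebra U) (π : R →⋆ₐ[ℂ] U),
      Function.Surjective π ∧ ∀ x, ‖π x‖ = N x := by
  let s : CSemi R := ⟨N, N_add, N_smul, N_mul, N_star, N_cstar⟩
  have : CompleteSpace s.Q := s.complete N_le N_lift
  exact ⟨s.Q, {}, { s.pr with map_star' := fun x => (s.star_mk x).symm }, s.mk_surj,
    fun x => s.norm_mk x⟩

variable {U : Type u} [CStarAlgebra U]

theorem exists_approx_unit (J : TwoSidedIdeal U) {j : U} (hj : j ∈ J) {η : ℝ} (hη : 0 < η) :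
    ∃ e ∈ J, IsSelfAdjoint e ∧ ‖1 - e‖ ≤ 1 ∧ ‖j * (1 - e)‖ ≤ η := by
  let _ := CStarAlgebra.spectralOrder U
  have _ := CStarAlgebra.spectralOrderedRing U
  have hW : 0 ≤ star j * j := star_mul_self_nonneg j
  have hW' : IsSelfAdjoint (star j * j) := .of_nonneg hW
  have hρ : 0 < η ^ 2 := by positivity
  have he : IsSelfAdjoint (pl (star j * j) (η ^ 2)) := pl_sa hW' hρ
  have h1 : ‖1 - pl (star j * j) (η ^ 2)‖ ≤ 1 := norm_one_sub_le (pl_nonneg hW hρ) (pl_le_one hW' hρ)
  refine ⟨_, J.mul_mem_right _ _ (J.mul_mem_left _ _ hj), he, h1, ?_⟩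
  have h2 : ‖star j * j * (1 - pl (star j * j) (η ^ 2))‖ ≤ η ^ 2 := by
    have e1 : star j * j * (1 - pl (star j * j) (η ^ 2)) =
        cfc (fun t : ℝ => t - t * (t * (max t (η ^ 2))⁻¹)) (star j * j) := by
      have c1 : Continuous fun t : ℝ => t * (t * (max t (η ^ 2))⁻¹) :=
        continuous_id.mul (cont_pl hρ)
      rw [cfc_sub (fun t : ℝ => t) _ _ (by fun_prop) c1.continuousOn,
        cfc_mul (fun t : ℝ => t) _ _ (by fun_prop) (cont_pl hρ).continuousOn, cfc_id' ℝ _,
        ← pl_eq hW' hρ, mul_sub, mul_one]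
    rw [e1]
    refine norm_cfc_le hρ.le fun t ht => ?_
    have h0 := spectrum_nonneg_of_nonneg hW ht
    rcases le_total t (η ^ 2) with h | h
    · rw [max_eq_right h, Real.norm_eq_abs, abs_le]
      have h3 : 0 ≤ t * (η ^ 2)⁻¹ := by positivity
      have h4 : t * (η ^ 2)⁻¹ ≤ 1 := by rw [← div_eq_mul_inv, div_le_one hρ]; exact h
      constructor <;> nlinarith
    · rw [max_eq_left h, mul_inv_cancel₀ (hρ.trans_le h).ne', mul_one, sub_self, norm_zero]
      exact hρ.le
  change ‖j * (1 - pl (star j * j) (η ^ 2))‖ ≤ η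
  set e := pl (star j * j) (η ^ 2)
  refine (pow_le_pow_iff_left₀ (norm_nonneg _) hη.le two_ne_zero).1 ?_
  rw [sq, ← CStarRing.norm_star_mul_self, star_mul, star_sub, star_one, he.star_eq,
    show (1 - e) * star j * (j * (1 - e)) = (1 - e) * (star j * j * (1 - e)) by noncomm_ring]
  refine (norm_mul_le _ _).trans ?_
  nlinarith [norm_nonneg (star j * j * (1 - e))]

section dist

variable (J : TwoSidedIdeal U)

/-- distance to the ideal -/
noncomputable def dI (x : U) : ℝ := Metric.infDist x (J : Set U)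

variable {J}

theorem dI_le (x : U) {j : U} (hj : j ∈ J) : dI J x ≤ ‖x - j‖ := by
  rw [← dist_eq_norm]; exact Metric.infDist_le_dist_of_mem hj

theorem dI_near (J : TwoSidedIdeal U) (x : U) {ε : ℝ} (hε : 0 < ε) :
    ∃ j ∈ J, ‖x - j‖ < dI J x + ε := by
  obtain ⟨j, hj, h⟩ := (Metric.infDist_lt_iff (x := x) (s := (J : Set U)) ⟨0, J.zero_mem⟩).1
    (lt_add_of_pos_right _ hε)
  exact ⟨j, hj, by rwa [← dist_eq_norm]⟩

theorem le_dI {x : U} {r : ℝ} (h : ∀ j ∈ J, r ≤ ‖x - j‖) : r ≤ dI J x :=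
  le_of_forall_pos_le_add fun ε hε => by
    obtain ⟨j, hj, h1⟩ := dI_near J x hε
    exact (h j hj).trans h1.le

theorem dI_nonneg (x : U) : 0 ≤ dI J x := Metric.infDist_nonneg

theorem dI_add (x y : U) : dI J (x + y) ≤ dI J x + dI J y := by
  rw [← sub_le_iff_le_add]
  refine le_dI fun j hj => ?_
  rw [sub_le_comm]
  refine le_dI fun k hk => ?_
  have h := dI_le (x + y) (J.add_mem hj hk)
  rw [show x + y - (j + k) = (x - j) + (y - k) by abel] at h
  linarith [norm_add_le (x - j) (y - k)]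

theorem dI_mul (x y : U) : dI J (x * y) ≤ dI J x * dI J y := by
  have h : ∀ ε : ℝ, 0 < ε → dI J (x * y) ≤ (dI J x + ε) * (dI J y + ε) := fun ε hε => by
    obtain ⟨j, hj, h1⟩ := dI_near J x hε
    obtain ⟨k, hk, h2⟩ := dI_near J y hε
    have h := dI_le (x * y) (J.add_mem (J.mul_mem_left (x - j) _ hk) (J.mul_mem_right _ y hj))
    rw [show x * y - ((x - j) * k + j * y) = (x - j) * (y - k) by noncomm_ring] at h
    exact h.trans ((norm_mul_le _ _).trans (mul_le_mul h1.le h2.le (norm_nonneg _)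
      ((norm_nonneg _).trans h1.le)))
  have hc : Continuous fun ε : ℝ => (dI J x + ε) * (dI J y + ε) := by fun_prop
  have ht := (hc.tendsto 0).mono_left (nhdsWithin_le_nhds (s := Set.Ioi 0))
  simp only [add_zero] at ht
  exact ge_of_tendsto ht (eventually_mem_nhdsWithin.mono h)

theorem dI_smul_le (c : ℂ) (x : U) : dI J (c • x) ≤ ‖c‖ * dI J x := by
  refine le_of_forall_pos_le_add fun ε hε => ?_
  obtain ⟨j, hj, h1⟩ := dI_near J x (div_pos hε (by positivity : 0 < ‖c‖ + 1))
  have h := dI_le (c • x) (J.mul_mem_left (algebraMap ℂ U c) _ hj)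
  rw [← Algebra.smul_def, ← smul_sub, norm_smul] at h
  have h2 := mul_le_mul_of_nonneg_left h1.le (norm_nonneg c)
  have h3 : ‖c‖ * (ε / (‖c‖ + 1)) ≤ ε := by
    rw [← mul_div_assoc, div_le_iff₀ (by positivity)]; nlinarith
  rw [mul_add] at h2
  linarith

theorem dI_smul (c : ℂ) (x : U) : dI J (c • x) = ‖c‖ * dI J x := by
  refine le_antisymm (dI_smul_le c x) ?_
  rcases eq_or_ne c 0 with rfl | hc
  · rw [norm_zero, zero_mul]; exact dI_nonneg _
  · have h := dI_smul_le (J := J) c⁻¹ (c • x)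
    rw [inv_smul_smul₀ hc, norm_inv, le_inv_mul_iff₀ (norm_pos_iff.2 hc)] at h
    exact h

theorem dI_star_le (x : U) : dI J (star x) ≤ dI J x := by
  refine le_dI fun j hj => le_of_forall_pos_le_add fun η hη => ?_
  obtain ⟨e, he, h1, -, h3⟩ := exists_approx_unit J hj hη
  have h := dI_le (star x) (J.mul_mem_right e (star j) he)
  have e1 : star x - e * star j = star (x - j) + star (j * (1 - e)) := by
    rw [star_sub, star_mul, star_sub, star_one, h1.star_eq]; noncomm_ring
  rw [e1] at h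
  have h4 := norm_add_le (star (x - j)) (star (j * (1 - e)))
  rw [norm_star, norm_star] at h4
  linarith

theorem dI_star (x : U) : dI J (star x) = dI J x :=
  le_antisymm (dI_star_le x) (by simpa using dI_star_le (J := J) (star x))

theorem dI_cstar (x : U) : dI J x * dI J x ≤ dI J (star x * x) := by
  refine le_dI fun j hj => le_of_forall_pos_le_add fun η hη => ?_
  obtain ⟨e, he, h1, h2, h3⟩ := exists_approx_unit J hj hη
  have h := dI_le x (J.mul_mem_left x e he)
  have h4 := mul_self_le_mul_self (dI_nonneg x) h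
  have e1 : star (x - x * e) * (x - x * e) =
      (1 - e) * (star x * x - j) * (1 - e) + (1 - e) * (j * (1 - e)) := by
    rw [star_sub, star_mul, h1.star_eq]; noncomm_ring
  rw [← CStarRing.norm_star_mul_self, e1] at h4
  refine h4.trans ((norm_add_le _ _).trans (add_le_add ?_ ?_))
  · refine (norm_mul_le _ _).trans ((mul_le_of_le_one_right (norm_nonneg _) h2).trans ?_)
    exact (norm_mul_le _ _).trans (mul_le_of_le_one_left (norm_nonneg _) h2)
  · exact (norm_mul_le _ _).trans ((mul_le_of_le_one_left (norm_nonneg _) h2).trans h3)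

theorem dI_mem {j : U} (hj : j ∈ J) : dI J j = 0 := Metric.infDist_zero_of_mem hj

end dist

theorem exists_quot (J : TwoSidedIdeal U) :
    ∃ q : Rep U, Function.Surjective q.π ∧ (∀ j ∈ J, q.π j = 0) ∧
      ∀ x : U, ∀ ε : ℝ, 0 < ε → ∃ j ∈ J, ‖x - j‖ < ‖q.π x‖ + ε := by
  obtain ⟨V, _, π, h1, h2⟩ := exists_quot_semi (dI J) dI_add dI_smul dI_mul dI_star dI_cstar
    (fun x => by simpa using dI_le x J.zero_mem) fun x ε hε => by
      obtain ⟨j, hj, h⟩ := dI_near J x hε
      exact ⟨x - j, by rw [sub_sub_cancel]; exact dI_mem hj, h.le⟩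
  let _ := CStarAlgebra.spectralOrder V
  have _ := CStarAlgebra.spectralOrderedRing V
  refine ⟨{ V := V, π := π }, h1, fun j hj => ?_, fun x ε hε => ?_⟩
  · exact norm_eq_zero.1 ((h2 j).trans (dI_mem hj))
  · obtain ⟨j, hj, h⟩ := dI_near J x hε
    exact ⟨j, hj, by rw [← h2] at h; exact h⟩

theorem exists_factor (q φ : Rep U) (hq : Function.Surjective q.π)
    (h : ∀ x, q.π x = 0 → φ.π x = 0) :
    ∃ π' : q.V →⋆ₐ[ℂ] φ.V, ∀ x, π' (q.π x) = φ.π x := by
  have key : ∀ x, φ.π (Function.surjInv hq (q.π x)) = φ.π x := fun x => by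
    rw [← sub_eq_zero, ← map_sub]
    apply h
    rw [map_sub, Function.surjInv_eq hq, sub_self]
  refine ⟨{ toFun := fun v => φ.π (Function.surjInv hq v)
            map_one' := by rw [← map_one q.π, key, map_one]
            map_mul' := fun v w => ?_
            map_zero' := by rw [← map_zero q.π, key, map_zero]
            map_add' := fun v w => ?_
            commutes' := fun c => by rw [← AlgHomClass.commutes q.π, key, AlgHomClass.commutes]
            map_star' := fun v => ?_ }, key⟩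
  · obtain ⟨x, rfl⟩ := hq v
    obtain ⟨y, rfl⟩ := hq w
    rw [← map_mul q.π, key, key, key, map_mul]
  · obtain ⟨x, rfl⟩ := hq v
    obtain ⟨y, rfl⟩ := hq w
    rw [← map_add q.π, key, key, key, map_add]
  · obtain ⟨x, rfl⟩ := hq v
    rw [← map_star q.π, key, key, map_star]

theorem exists_quot_gen (d : U) :
    ∃ q : Rep U, Function.Surjective q.π ∧ q.π d = 0 ∧
      ∀ φ : Rep U, φ.π d = 0 → ∃ π' : q.V →⋆ₐ[ℂ] φ.V, ∀ x, π' (q.π x) = φ.π x := by
  obtain ⟨q, h1, h2, h3⟩ := exists_quot (TwoSidedIdeal.span {d})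
  refine ⟨q, h1, h2 d (TwoSidedIdeal.subset_span rfl), fun φ hφ => ?_⟩
  refine exists_factor q φ h1 fun x hx => ?_
  have hle : TwoSidedIdeal.span {d} ≤ TwoSidedIdeal.ker φ.π :=
    TwoSidedIdeal.span_le.2 (by
      rintro _ rfl
      exact (TwoSidedIdeal.mem_ker _).2 hφ)
  refine norm_le_zero_iff.1 (le_of_forall_pos_le_add fun ε hε => ?_)
  obtain ⟨j, hj, h⟩ := h3 x ε hε
  have h4 := φ.norm_le (x - j)
  rw [map_sub, (TwoSidedIdeal.mem_ker _).1 (hle hj), sub_zero] at h4
  rw [hx, norm_zero] at h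
  exact h4.trans h.le

end Vale.Agent.P133
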