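import Mathlib

/-! P133 (purely infinite implies strongly purely infinite): working definitions in a unital
C*-algebra `U` and the functional calculus kit. See `notes/P133.md` for the whole proof. -/

namespace Vale.Agent.P133

universe u

/-- A unital star homomorphism from `U` to some ordered C*-algebra. -/
structure Rep (U : Type u) [CStarAlgebra U] where
  V : Type u
  [alg : CStarAlgebra V]
  [po : PartialOrder V]
  [so : StarOrderedRing V]
  π : U →⋆ₐ[ℂ] V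

attribute [instance] Rep.alg Rep.po Rep.so

/-- compose a representation of the target of `q` with `q` -/
def Rep.comp {U : Type u} [CStarAlgebra U] (q : Rep U) (ψ : Rep q.V) : Rep U :=
  { V := ψ.V, π := ψ.π.comp q.π }

@[simp] theorem Rep.comp_apply {U : Type u} [CStarAlgebra U] (q : Rep U) (ψ : Rep q.V) (x : U) :
    (q.comp ψ).π x = ψ.π (q.π x) := rfl

section defs
variable {U : Type u} [CStarAlgebra U]

theorem Rep.norm_le (φ : Rep U) (x : U) : ‖φ.π x‖ ≤ ‖x‖ :=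
  NonUnitalStarAlgHom.norm_apply_le φ.π x

theorem Rep.cont (φ : Rep U) : Continuous φ.π :=
  AddMonoidHomClass.continuous_of_bound φ.π 1 fun x => by rw [one_mul]; exact φ.norm_le x

/-- `x` lies in the right ideal `k U` -/
def InR (k x : U) : Prop := ∃ r, x = k * r

/-- the closed ideal generated by `k` is at distance `< 1` from `a` -/
def Cov (a k : U) : Prop := ∀ φ : Rep U, φ.π k = 0 → ‖φ.π a‖ < 1

/-- `z` has approximately orthogonal twins in `z U` -/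
def Twin (z : U) : Prop := ∀ ε : ℝ, 0 < ε → ∃ s t : U,
  ‖star (z * s) * (z * s) - star z * z‖ < ε ∧ ‖star (z * t) * (z * t) - star z * z‖ < ε ∧
    ‖star (z * s) * (z * t)‖ < ε

/-- every two-sided multiple of `k` has twins -/
def Tw (k : U) : Prop := ∀ c r : U, Twin (c * k * r)

/-- the correlation of `k₁ U` and `k₂ U` through `c` is at most `κ` -/
def Corr (c k₁ k₂ : U) (κ : ℝ) : Prop :=
  ∀ x y : U, InR k₁ x → InR k₂ y → ‖star x * c * y‖ ≤ κ * ‖x‖ * ‖y‖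

/-- the conclusion of the main lemmas -/
def Good (c a₁ a₂ k₁ k₂ : U) (κ : ℝ) : Prop :=
  ∃ m₁ m₂ : U, InR k₁ m₁ ∧ InR k₂ m₂ ∧ Cov a₁ m₁ ∧ Cov a₂ m₂ ∧ Corr c m₁ m₂ κ

theorem InR.refl (k : U) : InR k k := ⟨1, (mul_one k).symm⟩
theorem InR.self_mul (k r : U) : InR k (k * r) := ⟨r, rfl⟩
theorem InR.mul {k x : U} (h : InR k x) (r : U) : InR k (x * r) := by
  obtain ⟨s, rfl⟩ := h; exact ⟨s * r, mul_assoc _ _ _⟩
theorem InR.add {k x y : U} (h : InR k x) (h' : InR k y) : InR k (x + y) := by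
  obtain ⟨s, rfl⟩ := h; obtain ⟨t, rfl⟩ := h'; exact ⟨s + t, (mul_add _ _ _).symm⟩
theorem InR.sub {k x y : U} (h : InR k x) (h' : InR k y) : InR k (x - y) := by
  obtain ⟨s, rfl⟩ := h; obtain ⟨t, rfl⟩ := h'; exact ⟨s - t, (mul_sub _ _ _).symm⟩
theorem InR.smul {k x : U} (h : InR k x) (c : ℝ) : InR k (c • x) := by
  obtain ⟨s, rfl⟩ := h; exact ⟨c • s, (mul_smul_comm _ _ _).symm⟩
theorem InR.trans {k x y : U} (h : InR k x) (h' : InR x y) : InR k y := by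
  obtain ⟨s, rfl⟩ := h'; exact h.mul s
theorem InR.map {k x : U} (h : InR k x) (φ : Rep U) : InR (φ.π k) (φ.π x) := by
  obtain ⟨s, rfl⟩ := h; exact ⟨φ.π s, map_mul _ _ _⟩
theorem InR.map_eq_zero {k x : U} (h : InR k x) (φ : Rep U) (hk : φ.π k = 0) : φ.π x = 0 := by
  obtain ⟨s, rfl⟩ := h; rw [map_mul, hk, zero_mul]
theorem InR.fix {k x w : U} (h : InR k x) (hw : w * k = k) : w * x = x := by
  obtain ⟨s, rfl⟩ := h; rw [← mul_assoc, hw]
theorem InR.kill {k x w : U} (h : InR k x) (hw : w * k = 0) : w * x = 0 := by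
  obtain ⟨s, rfl⟩ := h; rw [← mul_assoc, hw, zero_mul]

theorem Tw.inR {k x : U} (h : Tw k) (hx : InR k x) : Tw x := by
  obtain ⟨s, rfl⟩ := hx
  intro c r
  have := h c (s * r)
  rwa [show c * k * (s * r) = c * (k * s) * r by noncomm_ring] at this
theorem Tw.left {k : U} (h : Tw k) (c : U) : Tw (c * k) := by
  intro c' r
  have := h (c' * c) r
  rwa [show c' * c * k * r = c' * (c * k) * r by noncomm_ring] at this
theorem Tw.twin {k : U} (h : Tw k) : Twin k := by simpa using h 1 1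

theorem Twin.map {z : U} (h : Twin z) (q : Rep U) : Twin (q.π z) := by
  intro ε hε
  obtain ⟨s, t, h1, h2, h3⟩ := h ε hε
  refine ⟨q.π s, q.π t, ?_, ?_, ?_⟩
  · refine lt_of_le_of_lt ?_ h1
    refine le_trans (le_of_eq ?_) (q.norm_le _)
    simp only [map_sub, map_mul, map_star]
  · refine lt_of_le_of_lt ?_ h2
    refine le_trans (le_of_eq ?_) (q.norm_le _)
    simp only [map_sub, map_mul, map_star]
  · refine lt_of_le_of_lt ?_ h3
    refine le_trans (le_of_eq ?_) (q.norm_le _)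
    simp only [map_mul, map_star]

theorem Tw.map {k : U} (h : Tw k) (q : Rep U) (hq : Function.Surjective q.π) : Tw (q.π k) := by
  intro c r
  obtain ⟨c, rfl⟩ := hq c
  obtain ⟨r, rfl⟩ := hq r
  have := (h c r).map q
  rwa [map_mul, map_mul] at this

theorem Cov.map {a k : U} (h : Cov a k) (q : Rep U) : Cov (q.π a) (q.π k) :=
  fun ψ hψ => h (q.comp ψ) hψ

theorem Cov.of_inR {a k x : U} (h : Cov a x) (hx : InR k x) : Cov a k :=
  fun φ hφ => h φ (hx.map_eq_zero φ hφ)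

/-- `(W - ρ)₊` -/
noncomputable def cut (W : U) (ρ : ℝ) : U := cfc (fun t : ℝ => max (t - ρ) 0) W
/-- `1 / max(W, ρ)` -/
noncomputable def psi (W : U) (ρ : ℝ) : U := cfc (fun t : ℝ => (max t ρ)⁻¹) W
/-- `min(1, W / ρ)` for positive `W` -/
noncomputable def pl (W : U) (ρ : ℝ) : U := W * psi W ρ

theorem cont_psi {ρ : ℝ} (hρ : 0 < ρ) : Continuous (fun t : ℝ => (max t ρ)⁻¹) :=
  (continuous_id.max continuous_const).inv₀ fun t => (lt_max_of_lt_right hρ).ne'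

theorem cont_pl {ρ : ℝ} (hρ : 0 < ρ) : Continuous (fun t : ℝ => t * (max t ρ)⁻¹) :=
  continuous_id.mul (cont_psi hρ)

theorem cut_sa (W : U) (ρ : ℝ) : IsSelfAdjoint (cut W ρ) := cfc_predicate _ _
theorem psi_sa (W : U) (ρ : ℝ) : IsSelfAdjoint (psi W ρ) := cfc_predicate _ _

theorem map_cut (φ : Rep U) {W : U} (hW : IsSelfAdjoint W) (ρ : ℝ) :
    φ.π (cut W ρ) = cut (φ.π W) ρ :=
  StarAlgHomClass.map_cfc (S := ℂ) φ.π _ W (by fun_prop) φ.cont hW (hW.map φ.π)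

theorem map_psi (φ : Rep U) {W : U} (hW : IsSelfAdjoint W) {ρ : ℝ} (hρ : 0 < ρ) :
    φ.π (psi W ρ) = psi (φ.π W) ρ :=
  StarAlgHomClass.map_cfc (S := ℂ) φ.π _ W (cont_psi hρ).continuousOn φ.cont hW
    (hW.map φ.π)

theorem map_pl (φ : Rep U) {W : U} (hW : IsSelfAdjoint W) {ρ : ℝ} (hρ : 0 < ρ) :
    φ.π (pl W ρ) = pl (φ.π W) ρ := by
  rw [pl, pl, map_mul, map_psi φ hW hρ]

theorem pl_eq {W : U} (hW : IsSelfAdjoint W) {ρ : ℝ} (hρ : 0 < ρ) :
    pl W ρ = cfc (fun t : ℝ => t * (max t ρ)⁻¹) W := by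
  rw [cfc_mul _ _ W (by fun_prop) (cont_psi hρ).continuousOn, cfc_id' ℝ W, pl, psi]

theorem pl_eq' {W : U} (hW : IsSelfAdjoint W) {ρ : ℝ} (hρ : 0 < ρ) :
    pl W ρ = psi W ρ * W := by
  rw [pl_eq hW hρ, psi]
  conv_rhs => rw [← cfc_id' ℝ W]
  rw [cfc_id' ℝ W, show (fun t : ℝ => t * (max t ρ)⁻¹) = fun t : ℝ => (max t ρ)⁻¹ * t from
    funext fun t => mul_comm _ _, cfc_mul _ _ W (cont_psi hρ).continuousOn (by fun_prop),
    cfc_id' ℝ W]

theorem pl_sa {W : U} (hW : IsSelfAdjoint W) {ρ : ℝ} (hρ : 0 < ρ) : IsSelfAdjoint (pl W ρ) := by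
  rw [pl_eq hW hρ]; exact cfc_predicate _ _

theorem norm_psi_le (W : U) {ρ : ℝ} (hρ : 0 < ρ) : ‖psi W ρ‖ ≤ ρ⁻¹ := by
  refine norm_cfc_le (by positivity) fun t _ => ?_
  rw [Real.norm_eq_abs, abs_of_pos (inv_pos.2 (lt_max_of_lt_right hρ))]
  exact inv_anti₀ hρ (le_max_right _ _)

theorem pl_mul_cut {W : U} (hW : IsSelfAdjoint W) {ρ : ℝ} (hρ : 0 < ρ) :
    pl W ρ * cut W ρ = cut W ρ := by
  rw [pl_eq hW hρ, cut, ← cfc_mul _ _ W (cont_pl hρ).continuousOn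
    (by fun_prop)]
  refine cfc_congr fun t _ => ?_
  rcases le_total t ρ with h | h
  · simp [max_eq_right (sub_nonpos.2 h)]
  · simp only [max_eq_left h]
    rw [mul_inv_cancel₀ (hρ.trans_le h).ne', one_mul]

theorem cut_mul_pl {W : U} (hW : IsSelfAdjoint W) {ρ : ℝ} (hρ : 0 < ρ) :
    cut W ρ * pl W ρ = cut W ρ := by
  have := congrArg star (pl_mul_cut hW hρ)
  rwa [star_mul, (cut_sa W ρ).star_eq, (pl_sa hW hρ).star_eq] at this

theorem inR_pl (W : U) (ρ : ℝ) : InR W (pl W ρ) := ⟨_, rfl⟩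

theorem inR_cut {W : U} (hW : IsSelfAdjoint W) {ρ : ℝ} (hρ : 0 < ρ) : InR W (cut W ρ) := by
  rw [← pl_mul_cut hW hρ]; exact (inR_pl W ρ).mul _

theorem psi_of_norm_le {W : U} (hW : IsSelfAdjoint W) {ρ : ℝ} (h : ‖W‖ ≤ ρ) :
    psi W ρ = ρ⁻¹ • (1 : U) := by
  rw [psi, ← Algebra.algebraMap_eq_smul_one, ← cfc_const ρ⁻¹ W]
  refine cfc_congr fun t ht => ?_
  have : ‖t‖ ≤ ‖W‖ := IsometricContinuousFunctionalCalculus.norm_spectrum_le W ht
  simp only [max_eq_right ((le_abs_self t).trans (this.trans h))]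

variable [PartialOrder U] [StarOrderedRing U]

theorem cut_nonneg (W : U) (ρ : ℝ) : 0 ≤ cut W ρ := cfc_nonneg fun _ _ => le_max_right _ _

theorem psi_nonneg (W : U) {ρ : ℝ} (hρ : 0 < ρ) : 0 ≤ psi W ρ :=
  cfc_nonneg fun _ _ => (inv_pos.2 (lt_max_of_lt_right hρ)).le

theorem pl_nonneg {W : U} (hW : 0 ≤ W) {ρ : ℝ} (hρ : 0 < ρ) : 0 ≤ pl W ρ := by
  rw [pl_eq (.of_nonneg hW) hρ]
  exact cfc_nonneg fun t ht => mul_nonneg (spectrum_nonneg_of_nonneg hW ht)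
    (inv_pos.2 (lt_max_of_lt_right hρ)).le

theorem pl_le_one {W : U} (hW : IsSelfAdjoint W) {ρ : ℝ} (hρ : 0 < ρ) : pl W ρ ≤ 1 := by
  rw [pl_eq hW hρ]
  refine cfc_le_one _ _ fun t _ => ?_
  rw [← div_eq_mul_inv, div_le_one (lt_max_of_lt_right hρ)]
  exact le_max_left _ _

theorem norm_pl_le {W : U} (hW : 0 ≤ W) {ρ : ℝ} (hρ : 0 < ρ) : ‖pl W ρ‖ ≤ 1 :=
  (CStarAlgebra.norm_le_one_iff_of_nonneg _ (pl_nonneg hW hρ)).2 (pl_le_one (.of_nonneg hW) hρ)

theorem norm_one_sub_le {w : U} (h0 : 0 ≤ w) (h1 : w ≤ 1) : ‖1 - w‖ ≤ 1 :=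
  (CStarAlgebra.norm_le_one_iff_of_nonneg _ (sub_nonneg.2 h1)).2 (by simpa using h0)

theorem pl_le_smul {W : U} (hW : 0 ≤ W) {ρ : ℝ} (hρ : 0 < ρ) : pl W ρ ≤ ρ⁻¹ • W := by
  have hW' : IsSelfAdjoint W := .of_nonneg hW
  rw [pl_eq hW' hρ, ← cfc_const_mul_id ρ⁻¹ W]
  refine cfc_mono (fun t ht => ?_) (cont_pl hρ).continuousOn (by fun_prop)
  rw [mul_comm ρ⁻¹]
  exact mul_le_mul_of_nonneg_left (inv_anti₀ hρ (le_max_right _ _))
    (spectrum_nonneg_of_nonneg hW ht)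

theorem norm_sub_cut_le {W : U} (hW : 0 ≤ W) {ρ : ℝ} (hρ : 0 ≤ ρ) : ‖W - cut W ρ‖ ≤ ρ := by
  have hW' : IsSelfAdjoint W := .of_nonneg hW
  have : W - cut W ρ = cfc (fun t : ℝ => t - max (t - ρ) 0) W := by
    rw [cfc_sub _ _ W (by fun_prop) (by fun_prop), cfc_id' ℝ W, cut]
  rw [this]
  refine norm_cfc_le hρ fun t ht => ?_
  have := spectrum_nonneg_of_nonneg hW ht
  rw [Real.norm_eq_abs, abs_le]
  rcases le_total (t - ρ) 0 with h | h
  · rw [max_eq_right h]; constructor <;> linarith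
  · rw [max_eq_left h]; constructor <;> linarith

theorem cut_eq_zero_iff {W : U} (hW : 0 ≤ W) {ρ : ℝ} (hρ : 0 ≤ ρ) : cut W ρ = 0 ↔ ‖W‖ ≤ ρ := by
  constructor
  · intro h
    have := norm_sub_cut_le hW hρ
    rwa [h, sub_zero] at this
  · intro h
    have hW' : IsSelfAdjoint W := .of_nonneg hW
    rw [cut, ← cfc_const_zero ℝ W]
    refine cfc_congr fun t ht => ?_
    have : ‖t‖ ≤ ‖W‖ := IsometricContinuousFunctionalCalculus.norm_spectrum_le W ht
    simp only [max_eq_right (sub_nonpos.2 ((le_abs_self t).trans (this.trans h)))]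

theorem norm_lt_of_pl {W : U} (hW : 0 ≤ W) {ρ : ℝ} (hρ : 0 < ρ) (h : ‖pl W ρ‖ < 1) :
    ‖W‖ < ρ := by
  have hW' : IsSelfAdjoint W := .of_nonneg hW
  rcases subsingleton_or_nontrivial U with hU | hU
  · rwa [Subsingleton.elim W 0, norm_zero]
  by_contra hc
  push Not at hc
  have h1 := norm_apply_le_norm_cfc (fun t : ℝ => t * (max t ρ)⁻¹) W
    (CStarAlgebra.norm_mem_spectrum_of_nonneg hW) (cont_pl hρ).continuousOn
  rw [← pl_eq hW' hρ, max_eq_left hc, mul_inv_cancel₀ (hρ.trans_le hc).ne', norm_one] at h1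
  linarith

theorem Rep.nonneg (φ : Rep U) {x : U} (h : 0 ≤ x) : 0 ≤ φ.π x := map_nonneg φ.π h
theorem Rep.mono (φ : Rep U) {x y : U} (h : x ≤ y) : φ.π x ≤ φ.π y := OrderHomClass.mono φ.π h

theorem map_cut_eq_zero_iff (φ : Rep U) {W : U} (hW : 0 ≤ W) {ρ : ℝ} (hρ : 0 ≤ ρ) :
    φ.π (cut W ρ) = 0 ↔ ‖φ.π W‖ ≤ ρ := by
  rw [map_cut φ (.of_nonneg hW), cut_eq_zero_iff (φ.nonneg hW) hρ]

theorem map_norm_lt_of_pl (φ : Rep U) {W : U} (hW : 0 ≤ W) {ρ : ℝ} (hρ : 0 < ρ)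
    (h : ‖φ.π (pl W ρ)‖ < 1) : ‖φ.π W‖ < ρ := by
  rw [map_pl φ (.of_nonneg hW) hρ] at h
  exact norm_lt_of_pl (φ.nonneg hW) hρ h

theorem cut_zero_eq_zero_iff {M : U} (hM : IsSelfAdjoint M) : cut M 0 = 0 ↔ M ≤ 0 := by
  constructor
  · intro h
    have : M ≤ cut M 0 := by
      conv_lhs => rw [← cfc_id' ℝ M]
      exact cfc_mono (fun t _ => by simp)
    rwa [h] at this
  · intro h
    rw [cut, ← cfc_const_zero ℝ M]
    refine cfc_congr fun t ht => ?_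
    have h2 : cfc (fun t : ℝ => t) M ≤ 0 := by rwa [cfc_id' ℝ M]
    have := (cfc_nonpos_iff _ M).1 h2 t ht
    simpa using this

theorem map_cut_zero_eq_zero_iff (φ : Rep U) {M : U} (hM : IsSelfAdjoint M) :
    φ.π (cut M 0) = 0 ↔ φ.π M ≤ 0 := by
  rw [map_cut φ hM, cut_zero_eq_zero_iff (hM.map φ.π)]

omit [PartialOrder U] [StarOrderedRing U] in
theorem cut_zero_conj {M : U} (hM : IsSelfAdjoint M) :
    cut M 0 * M * cut M 0 = cut M 0 * cut M 0 * cut M 0 := by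
  have : cut M 0 * M = cut M 0 * cut M 0 := by
    conv_lhs => rw [← cfc_id' ℝ M]
    rw [cfc_id' ℝ M, cut, ← cfc_mul _ _ M (by fun_prop) (by fun_prop)]
    conv_lhs => rw [← cfc_id' ℝ M]
    rw [cfc_id' ℝ M]
    conv_lhs => rhs; rw [← cfc_id' ℝ M]
    rw [← cfc_mul _ _ M (by fun_prop) (by fun_prop)]
    refine cfc_congr fun t _ => ?_
    rcases le_total t 0 with h | h
    · simp [max_eq_right h]
    · simp [max_eq_left h]
  rw [this]

/-- `x x* ≤ ‖x‖² w` when `w x = x`, `0 ≤ w ≤ 1`. -/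
theorem mul_star_le_of_fix {w x : U} (h0 : 0 ≤ w) (h1 : w ≤ 1) (hx : w * x = x) :
    x * star x ≤ (‖x‖ ^ 2) • w := by
  have hw : IsSelfAdjoint w := .of_nonneg h0
  have e : x * star x = w * (x * star x) * w := by
    have : star x * w = star x := by
      have := congrArg star hx
      rwa [star_mul, hw.star_eq] at this
    rw [← mul_assoc, hx, mul_assoc, this]
  have h2 : x * star x ≤ (‖x‖ ^ 2) • (1 : U) := by
    have := CStarAlgebra.mul_star_le_algebraMap_norm_sq (a := x)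
    rwa [Algebra.algebraMap_eq_smul_one] at this
  have h3 := hw.conjugate_le_conjugate h2
  rw [← e, mul_smul_comm, mul_one, smul_mul_assoc] at h3
  refine h3.trans (smul_le_smul_of_nonneg_left ?_ (by positivity))
  have h4 : 0 ≤ w * (1 - w) := by
    refine Commute.mul_nonneg h0 (sub_nonneg.2 h1) ?_
    exact (Commute.one_right w).sub_right (Commute.refl w)
  rw [mul_sub, mul_one] at h4
  exact sub_nonneg.1 h4

/-- from an operator inequality to norms -/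
theorem norm_sq_le_of_le {x T : U} (h : star x * x ≤ T) : ‖x‖ ^ 2 ≤ ‖T‖ := by
  rw [sq, ← CStarRing.norm_star_mul_self]
  exact CStarAlgebra.norm_le_norm_of_nonneg_of_le (star_mul_self_nonneg x) h

end defs

end Vale.Agent.P133
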